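import Vale.Agent.P207Z.Char.Axis.Lf

/-!
# P207: the estimate at one scale
-/

set_option linter.all false

open Set Filter Topology Metric MeasureTheory Asymptotics
open scoped ContDiff

noncomputable section

namespace Vale.Agent.P207Z

open Vale.Agent.P207.N3 (JC)
open Lift

variable {Γ X B E V : Type} [Group Γ] [Countable Γ] [MetricSpace X] [ProperSpace X]
  [MulAction Γ X] [IsIsometricSMul Γ X] [MeasurableSpace X] [BorelSpace X]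
  [TopologicalSpace B] [CompactSpace B] [T2Space B] [SecondCountableTopology B] [MulAction Γ B]
  [ContinuousConstSMul Γ B] [MeasurableSpace B] [BorelSpace B]
  [NormedAddCommGroup E] [InnerProductSpace ℝ E] [FiniteDimensional ℝ E]
  [NormedAddCommGroup V] [NormedSpace ℝ V] [FiniteDimensional ℝ V]
  {F : Type} [NormedAddCommGroup F] [NormedSpace ℝ F] [FiniteDimensional ℝ F]
  {S : Sys Γ X B E V} {𝔉 : Bun S F}

namespace Ax

theorem nums {Λ ϰ : ℝ} (hΛ : 1 ≤ Λ) (h0 : 0 < ϰ) (h1 : ϰ < 1) (L c : ℕ) :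
    ∃ η : ℝ, 0 < η ∧ η < 1 ∧ ∀ᶠ N : ℕ in atTop, ∀ m : ℕ,
      (Λ ^ (2 * m)) ^ (L + 2) * η ^ m ≤ ϰ ^ m ∧ Λ ^ (2 * m) * (ϰ ^ m) ^ N ≤ (η ^ m) ^ c := by
  have h2 : 1 ≤ (Λ ^ 2) ^ (L + 2) := one_le_pow₀ (one_le_pow₀ hΛ)
  have h3 : 0 < ϰ / (Λ ^ 2) ^ (L + 2) := by positivity
  refine ⟨ϰ / (Λ ^ 2) ^ (L + 2), h3, (div_le_self h0.le h2).trans_lt h1, ?_⟩
  have h4 := (tendsto_pow_atTop_nhds_zero_of_lt_one h0.le h1).const_mul (Λ ^ 2)
  rw [mul_zero] at h4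
  filter_upwards [h4.eventually (ge_mem_nhds (pow_pos h3 c))] with N hN m
  constructor
  · rw [pow_mul, ← pow_mul, mul_comm m, pow_mul, ← mul_pow, mul_div_cancel₀ _ (by positivity)]
  · rw [pow_mul, ← pow_mul ϰ, mul_comm m, pow_mul, ← mul_pow, ← pow_mul _ m, mul_comm m, pow_mul]
    exact pow_le_pow_left₀ (by positivity) hN m

theorem num1 {A δ κ : ℝ} {L c : ℕ} (hA : 1 ≤ A) (hδ : 0 ≤ δ) (κ1 : κ ≤ 1)
    (n1 : A ^ (L + 2) * δ ≤ κ) (hc : c ≤ L) : A * δ ≤ κ ∧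
    (∀ K C y : ℝ, 0 ≤ K → 0 ≤ C → 0 ≤ y → y ≤ δ →
      (K + C * A * (K * A)) * y ^ (L + 1) ≤ (K + C * K) * δ ^ c) ∧
    ∀ D y : ℝ, 0 ≤ D → 0 ≤ y → y ≤ D * (A * δ) → A * y ^ (L + 1) ≤ D ^ (L + 1) * δ ^ c := by
  have A2 : A ^ 2 * δ ≤ κ :=
    (mul_le_mul_of_nonneg_right (pow_le_pow_right₀ hA (by omega)) hδ).trans n1
  have A1 : A * δ ≤ κ := (mul_le_mul_of_nonneg_right (by nlinarith) hδ).trans A2
  have δc : δ ^ L ≤ δ ^ c := pow_le_pow_of_le_one hδ (by nlinarith) hc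
  refine ⟨A1, fun K C y hK hC y0 hy => ?_, fun D y hD y0 hy => ?_⟩
  · have g1 : K + C * A * (K * A) ≤ (K + C * K) * A ^ 2 := by
      nlinarith [mul_nonneg hK (by nlinarith : 0 ≤ A ^ 2 - 1)]
    refine (mul_le_mul g1 (pow_le_pow_left₀ y0 hy _) (by positivity) (by positivity)).trans ?_
    rw [mul_assoc, pow_succ' δ, ← mul_assoc (A ^ 2)]
    exact mul_le_mul_of_nonneg_left ((mul_le_of_le_one_left (by positivity)
      (A2.trans κ1)).trans δc) (by positivity)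
  · refine (mul_le_mul_of_nonneg_left (pow_le_pow_left₀ y0 hy _) (by positivity)).trans ?_
    rw [show A * (D * (A * δ)) ^ (L + 1) = D ^ (L + 1) * (A ^ (L + 2) * δ * δ ^ L) by ring]
    exact mul_le_mul_of_nonneg_left ((mul_le_of_le_one_left (by positivity)
      (n1.trans κ1)).trans δc) (by positivity)

theorem num2 {A δ κ D y : ℝ} {N c : ℕ} (hA : 1 ≤ A) (n2 : A * κ ^ N ≤ δ ^ c) (hD : 0 ≤ D)
    (y0 : 0 ≤ y) (hy : y ≤ D * κ) : A * y ^ N ≤ D ^ N * δ ^ c := by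
  refine (mul_le_mul_of_nonneg_left (pow_le_pow_left₀ y0 hy N) (by positivity)).trans ?_
  rw [mul_pow, mul_left_comm]
  exact mul_le_mul_of_nonneg_left n2 (by positivity)

theorem three {a b l : Du F} {v v' : F} {T : F →L[ℝ] F} (e : v' = T v) {C K₁ K₂ K₃ : ℝ}
    (hv : ‖v‖ ≤ C) (hv' : ‖v'‖ ≤ C) (h1 : ‖a - b ∘L T‖ ≤ K₁) (h2 : ‖b - l‖ ≤ K₂)
    (h3 : |l v'| ≤ K₃) : |a v| ≤ K₁ * C + (K₂ * C + K₃) := by
  have f1 := ((a - b ∘L T).le_opNorm v).trans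
    (mul_le_mul h1 hv (norm_nonneg _) ((norm_nonneg _).trans h1))
  have f2 := ((b - l).le_opNorm v').trans
    (mul_le_mul h2 hv' (norm_nonneg _) ((norm_nonneg _).trans h2))
  rw [show a v = (a - b ∘L T) v + ((b - l) v' + l v') by simp [e]]
  exact (abs_add_le _ _).trans (add_le_add f1 ((abs_add_le _ _).trans (add_le_add f2 h3)))

variable (St : S.Step)

theorem geo : ∃ b r : ℝ, 0 < b ∧ 0 < r ∧ ∀ x, ∀ t ≥ (0 : ℝ), ∀ w : E, ‖w‖ < St.ρ / (2 * St.C) →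
    ∀ q ∈ ball (S.iS w) (r * Real.exp (-b * t)), S.Stay (1 / 2) x t q ∧ ‖q‖ < St.ρ ∧
      ‖S.τ x (S.φ t x) q‖ < St.ρ ∧
      ‖S.pU (S.τ x (S.φ t x) q)‖ ≤ Real.exp b * (Real.exp (b * t) * ‖q - S.iS w‖) ∧
      ‖S.τ x (S.φ t x) q‖ ≤ St.C * Real.exp (-S.lam * t)
        + Real.exp b * (Real.exp (b * t) * ‖q - S.iS w‖) := by
  obtain ⟨b, r, hb, hr, h⟩ := S.stay_ball (a := 1 / 4) (a' := 1 / 2) (by norm_num) (by norm_num)
  have hρ := St.ρ_pos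
  have hC := St.C_pos
  refine ⟨b, min r (St.ρ / 2 * Real.exp (-b)), hb, by positivity, fun x t ht w hw q hq => ?_⟩
  rw [lt_div_iff₀ (by positivity)] at hw
  have w0 := norm_nonneg w
  have w1 : ‖w‖ < St.ρ / 2 := by nlinarith
  obtain ⟨a1, a2⟩ := St.stay x t ht w (mem_ball_zero_iff.2 (by linarith))
  obtain ⟨a3, a4⟩ := h x t _ a1 q (ball_subset_ball (by
    rw [abs_of_nonneg ht]; gcongr; exact min_le_left _ _) hq)
  rw [abs_of_nonneg ht, mul_add, mul_one, Real.exp_add, mul_comm (Real.exp (b * t)),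
    mul_assoc] at a4
  rw [mem_ball, dist_eq_norm] at hq
  have e1 : 1 ≤ Real.exp b := Real.one_le_exp hb.le
  have e2 : 1 ≤ Real.exp (b * t) := Real.one_le_exp (by positivity)
  have e3 : Real.exp (-S.lam * t) ≤ 1 := Real.exp_le_one_iff.2 (by nlinarith [S.lam_pos])
  have q0 := norm_nonneg (q - S.iS w)
  have a5 : Real.exp b * (Real.exp (b * t) * ‖q - S.iS w‖) ≤ St.ρ / 2 := by
    refine (mul_le_mul_of_nonneg_left (mul_le_mul_of_nonneg_left (hq.le.trans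
      (mul_le_mul_of_nonneg_right (min_le_right _ _) (Real.exp_pos _).le)) (by positivity))
      (by positivity)).trans (le_of_eq ?_)
    rw [neg_mul, Real.exp_neg, Real.exp_neg]
    field_simp
  have a6 : ‖q - S.iS w‖ ≤ St.ρ / 2 :=
    ((le_mul_of_one_le_left q0 e2).trans (le_mul_of_one_le_left (by positivity) e1)).trans a5
  have a7 := norm_le_insert' (S.τ x (S.φ t x) q) (S.τ x (S.φ t x) (S.iS w))
  have a8 := norm_le_insert' q (S.iS w)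
  rw [S.norm_iS] at a8
  have a9 : S.pU (S.τ x (S.φ t x) (S.iS w)) = 0 :=
    (Sys.pU_τ (S.ep_φ t x).symm (a1 t right_mem_uIcc).1).2 (S.pU_iS w)
  have e4 := Real.exp_pos (-S.lam * t)
  have b1 : St.C * Real.exp (-S.lam * t) * ‖w‖ ≤ St.C * 1 * ‖w‖ := by gcongr
  have b2 : St.C * Real.exp (-S.lam * t) * ‖w‖ ≤ St.C * Real.exp (-S.lam * t) * 1 := by
    gcongr; linarith [St.ρ_le]
  refine ⟨a3, by linarith, by nlinarith, ?_, by linarith⟩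
  rw [← sub_zero (S.pU _), ← a9, ← map_sub]
  exact (S.norm_pU_le _).trans a4

theorem term1 {L : ℕ} {u u' : V → Du F} {q z : V} {R K : ℝ} (hz : z ∈ ball q R)
    (h : ∀ z ∈ ball q R, Pb (L + 1) (fun z => u z - u' z) z K)
    (hu : ContDiffAt ℝ ∞ u q) (hu' : ContDiffAt ℝ ∞ u' q) (e : jet L u' q = jet L u q) :
    ‖u z - u' z‖ ≤ K * ‖z - q‖ ^ (L + 1) :=
  Van.norm_le (L + 1) (van_iff_jet.2 (by rw [jet_sub (cda hu _) (cda hu' _), e, sub_self])) h z hz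

theorem core (s : CSec 𝔉) (L : ℕ) : ∃ Q : ℝ, 0 ≤ Q ∧ ∀ (N c : ℕ) (K r' : ℝ), c ≤ L → 0 < r' →
    ∃ C' κ₀ : ℝ, 0 < κ₀ ∧ ∀ x, ∀ t ≥ (0 : ℝ), ∀ (u₀ u l' : V → Du F) (A δ κ : ℝ), 1 ≤ A → 0 ≤ δ →
      κ ≤ κ₀ → A ^ (L + 2) * δ ≤ κ → A * κ ^ N ≤ δ ^ c → Real.exp (Q * t) ≤ A →
      Real.exp (-S.lam * t) ≤ κ →
      (∀ z ∈ ball (0 : V) St.ρ, Pb (L + 1) u₀ z K ∧ Pb (L + 1) u z (K * A)) →
      (∀ z ∈ ball (0 : V) r', ‖u z - l' z‖ ≤ K * A * (‖S.pS z‖ ^ N + ‖S.pU z‖ ^ (L + 1)) ∧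
        |l' z (s.e (S.φ t x) z)| ≤ K * A * ‖z‖ ^ N) →
      (∀ w ∈ ball (0 : E) St.ρ, jet L (𝔉.pull x (S.φ t x) u) (S.iS w) = jet L u₀ (S.iS w)) →
      ∀ z : V, ‖z‖ < St.ρ / (2 * St.C) → ‖S.pU z‖ ≤ δ → |u₀ z (s.e x z)| ≤ C' * δ ^ c := by
  obtain ⟨b, r, hb, hr, hg⟩ := geo St
  obtain ⟨C, Q, hC, hQ, hp⟩ := pull_pb S 𝔉 (L + 1)
  obtain ⟨Ce, he0, he⟩ := S.unif_cont s.cont s.smul (a := 1 / 2) (by norm_num)
  refine ⟨max b Q, hQ.trans (le_max_right _ _), fun N c K r' hc hr' => ?_⟩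
  have hC1 := St.C_pos
  have eb := Real.exp_pos b
  obtain ⟨D, hD⟩ : ∃ D, D = St.C + Real.exp b := ⟨_, rfl⟩
  have D0 : 0 < D := by rw [hD]; positivity
  refine ⟨(K + C * K) * Ce + (K * (D ^ N + D ^ (L + 1)) * Ce + K * D ^ N),
    min (min 1 (r / 2)) (r' / (2 * D)), by positivity,
    fun x t ht u₀ u l' A δ κ hA hδ hκ n1 n2 n3 n4 h1 h2 h3 z hz hd => ?_⟩
  have hK := (h1 0 (mem_ball_self St.ρ_pos)).1.nonneg
  have κ0 : 0 ≤ κ := (Real.exp_pos _).le.trans n4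
  have κ1 : κ ≤ 1 := hκ.trans ((min_le_left _ _).trans (min_le_left _ _))
  have κ2 : κ ≤ r / 2 := hκ.trans ((min_le_left _ _).trans (min_le_right _ _))
  have κ3 : κ * (2 * D) ≤ r' := (le_div_iff₀ (by positivity)).1 (hκ.trans (min_le_right _ _))
  obtain ⟨A1, m1, m2⟩ := num1 hA hδ κ1 n1 hc
  have eA : Real.exp (b * t) ≤ A :=
    (Real.exp_le_exp.2 (mul_le_mul_of_nonneg_right (le_max_left _ _) ht)).trans n3
  have eQ : Real.exp (Q * t) ≤ A :=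
    (Real.exp_le_exp.2 (mul_le_mul_of_nonneg_right (le_max_right _ _) ht)).trans n3
  have hw := (S.norm_pS_le z).trans_lt hz
  have ez : ‖z - S.iS (S.pS z)‖ ≤ δ := by rwa [sub_iS, S.norm_iU]
  have hb' : z ∈ ball (S.iS (S.pS z)) (r * Real.exp (-b * t)) := by
    rw [mem_ball, dist_eq_norm, neg_mul, Real.exp_neg, ← div_eq_mul_inv,
      lt_div_iff₀ (Real.exp_pos _)]
    have := mul_le_mul ez eA (Real.exp_pos _).le hδ
    linarith [mul_comm δ A]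
  have p1 : ∀ q ∈ ball (S.iS (S.pS z)) (r * Real.exp (-b * t)), Pb (L + 1) u₀ q K ∧
      Pb (L + 1) (𝔉.pull x (S.φ t x) u) q (C * A * (K * A)) := fun q hq => by
    obtain ⟨a1, a2, a3, -⟩ := hg x t ht _ hw q hq
    exact ⟨(h1 q (mem_ball_zero_iff.2 a2)).1, (hp x t ht q a1 u _
      (h1 _ (mem_ball_zero_iff.2 a3)).2).le (by gcongr)⟩
  have c0 := mem_ball_self (pos_of_mem_ball hb') (x := S.iS (S.pS z))
  obtain ⟨-, c1, -⟩ := hg x t ht _ hw _ c0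
  rw [S.norm_iS] at c1
  have t1 := term1 hb' (fun q hq => (p1 q hq).1.sub (p1 q hq).2) (p1 _ c0).1.sm (p1 _ c0).2.sm
    (h3 _ (mem_ball_zero_iff.2 c1))
  obtain ⟨a1, -, -, a4, a5⟩ := hg x t ht _ hw z hb'
  obtain ⟨a2, a3⟩ := a1 t right_mem_uIcc
  have a6 : Real.exp b * (Real.exp (b * t) * ‖z - S.iS (S.pS z)‖) ≤ Real.exp b * (A * δ) := by
    gcongr
  have a7 : ‖S.τ x (S.φ t x) z‖ ≤ D * κ := by
    have := mul_le_mul_of_nonneg_left n4 (by linarith : 0 ≤ St.C)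
    have := mul_le_mul_of_nonneg_left A1 eb.le
    rw [hD]; linarith
  have a8 : ‖S.pU (S.τ x (S.φ t x) z)‖ ≤ D * (A * δ) := (a4.trans a6).trans (by
    gcongr; rw [hD]; linarith)
  obtain ⟨t2, t3⟩ := h2 _ (mem_ball_zero_iff.2 (a7.trans_lt
    (by linarith [mul_nonneg D0.le κ0, mul_comm D κ])))
  have f4 := mul_le_mul_of_nonneg_left (add_le_add (num2 hA n2 D0.le (norm_nonneg _)
    ((S.norm_pS_le _).trans a7)) (m2 D _ D0.le (norm_nonneg _) a8)) hK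
  have f5 := mul_le_mul_of_nonneg_left (num2 hA n2 D0.le (norm_nonneg _) a7) hK
  rw [← mul_add, ← mul_assoc] at f4
  rw [← mul_assoc] at f5
  exact (three (s.eqv x _ z a2) (he x z a1.norm_le) (he _ _ a3) (t1.trans
    (m1 K C _ hK hC (norm_nonneg _) ez)) (t2.trans f4) (t3.trans f5)).trans (le_of_eq (by ring))

end Ax

end Vale.Agent.P207Z
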