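import Vale.Agent.P207Z.Char.JT

/-!
# P207: sections built from their transverse jets along the stable axis
-/

set_option linter.all false

open Set Filter Topology Metric MeasureTheory Asymptotics
open scoped ContDiff

noncomputable section

namespace Vale.Agent.P207Z

open Vale.Agent.P207.N3 (JC)
open Lift

variable {Γ X B E V : Type} [Group Γ] [Countable Γ] [MetricSpace X] [ProperSpace X]
  [MulAction Γ X] [IsIsometricSMul Γ X] [MeasurableSpace X] [BorelSpace X]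
  [TopologicalSpace B] [CompactSpace B] [T2Space B] [SecondCountableTopology B] [MulAction Γ B]
  [ContinuousConstSMul Γ B] [MeasurableSpace B] [BorelSpace B]
  [NormedAddCommGroup E] [InnerProductSpace ℝ E] [FiniteDimensional ℝ E]
  [NormedAddCommGroup V] [NormedSpace ℝ V] [FiniteDimensional ℝ V]
  {F : Type} [NormedAddCommGroup F] [NormedSpace ℝ F] [FiniteDimensional ℝ F]
  {S : Sys Γ X B E V} {𝔉 : Bun S F}
  {G P : Type} [NormedAddCommGroup G] [NormedSpace ℝ G] [FiniteDimensional ℝ G]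
  [NormedAddCommGroup P] [NormedSpace ℝ P]

namespace Ax

theorem pow_scale {ι : Type} {A : Set ι} {f d : ι → ℝ} {η C C₀ : ℝ} {c m₀ : ℕ} (hη : 0 < η)
    (hη1 : η < 1) (hd : ∀ z, 0 ≤ d z) (h0 : ∀ z ∈ A, f z ≤ C₀)
    (h : ∀ m ≥ m₀, ∀ z ∈ A, d z ≤ η ^ m → f z ≤ C * (η ^ m) ^ c) :
    ∃ C' : ℝ, ∀ z ∈ A, f z ≤ C' * d z ^ c := by
  refine ⟨|C₀| * ((η ^ m₀)⁻¹) ^ c + |C| * η⁻¹ ^ c, fun z hz => ?_⟩
  have hz0 := hd z
  have p1 : 0 ≤ |C₀| * ((η ^ m₀)⁻¹) ^ c * d z ^ c := by positivity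
  have p2 : 0 ≤ |C| * η⁻¹ ^ c * d z ^ c := by positivity
  rw [add_mul]
  by_cases h1 : η ^ m₀ < d z
  · have h2 : 1 ≤ ((η ^ m₀)⁻¹ * d z) ^ c :=
      one_le_pow₀ (by rw [le_inv_mul_iff₀ (by positivity)]; linarith)
    have h3 := mul_le_mul_of_nonneg_left h2 (abs_nonneg C₀)
    rw [mul_pow, ← mul_assoc] at h3
    linarith [h0 z hz, le_abs_self C₀]
  · push Not at h1
    rcases hz0.eq_or_lt with h2 | h2
    · rcases c with _ | c
      · have := h m₀ le_rfl z hz h1
        simp only [pow_zero, mul_one] at this ⊢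
        linarith [le_abs_self C, abs_nonneg C₀]
      · have h3 : Tendsto (fun m : ℕ => C * (η ^ m) ^ (c + 1)) atTop (𝓝 (C * 0 ^ (c + 1))) :=
          ((tendsto_pow_atTop_nhds_zero_of_lt_one hη.le hη1).pow _).const_mul C
        have h4 := ge_of_tendsto h3 ((eventually_ge_atTop m₀).mono fun m hm =>
          h m hm z hz (by rw [← h2]; positivity))
        simp only [ne_eq, Nat.add_eq_zero_iff, one_ne_zero, and_false, not_false_eq_true,
          zero_pow, mul_zero] at h4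
        linarith
    · have hex : ∃ m, η ^ (m₀ + m + 1) < d z := by
        obtain ⟨m, hm⟩ := exists_pow_lt_of_lt_one h2 hη1
        exact ⟨m, (pow_le_pow_of_le_one hη.le hη1.le (by omega)).trans_lt hm⟩
      classical
      have h3 := Nat.find_spec hex
      have h4 : d z ≤ η ^ (m₀ + Nat.find hex) := by
        rcases e : Nat.find hex with _ | k
        · simpa using h1
        · exact not_lt.1 (Nat.find_min hex (m := k) (by omega))
      have h5 := h _ (Nat.le_add_right _ _) z hz h4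
      have h6 : η ^ (m₀ + Nat.find hex) ≤ η⁻¹ * d z := by
        rw [le_inv_mul_iff₀ hη, ← pow_succ']; exact h3.le
      have h7 := mul_le_mul (le_abs_self C) (pow_le_pow_left₀ (by positivity) h6 c)
        (by positivity) (abs_nonneg C)
      rw [mul_pow, ← mul_assoc] at h7
      linarith

theorem norm_iS_le : ‖S.iS‖ ≤ 1 :=
  ContinuousLinearMap.opNorm_le_bound _ zero_le_one fun w => by rw [S.norm_iS, one_mul]

theorem norm_pS_le : ‖S.pS‖ ≤ 1 :=
  ContinuousLinearMap.opNorm_le_bound _ zero_le_one fun w => by simpa using S.norm_pS_le w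

theorem pb_iS {j : ℕ} {f : V → G} {w : E} {K : ℝ} (h : Pb j f (S.iS w) K) :
    Pb j (fun w => f (S.iS w)) w (j.factorial * K) := by
  have := h.comp_clm S.iS
  rwa [max_eq_left norm_iS_le, one_pow, mul_one] at this

theorem pb_pS {j : ℕ} {f : E → P} {z : V} {K : ℝ} (h : Pb j f (S.pS z) K) :
    Pb j (fun z => f (S.pS z)) z (j.factorial * K) := by
  have := h.comp_clm S.pS
  rwa [max_eq_left norm_pS_le, one_pow, mul_one] at this

theorem pb_ap {V' : Type} [NormedAddCommGroup V'] [NormedSpace ℝ V'] {j : ℕ} {A : V' → P →L[ℝ] G}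
    {z : V'} {K : ℝ} (h : Pb j A z K) (v : P) : Pb j (fun z => A z v) z (K * ‖v‖) := by
  refine (h.clm (ContinuousLinearMap.apply ℝ G v)).le ?_
  rw [mul_comm]
  exact mul_le_mul_of_nonneg_left (ContinuousLinearMap.opNorm_le_bound _ (norm_nonneg _)
    fun A => by rw [mul_comm]; exact A.le_opNorm v) h.nonneg

theorem van_of_apply {V' : Type} [NormedAddCommGroup V'] [NormedSpace ℝ V'] {N : ℕ}
    {A : V' → P →L[ℝ] G} {z : V'} (hA : ContDiffAt ℝ ∞ A z) (h : ∀ v, Van N (fun z => A z v) z) :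
    Van N A z := fun i hi => by
  ext u v
  have := (ContinuousLinearMap.apply ℝ G v).iteratedFDeriv_comp_left hA (nat_le_inf i)
  have h1 := h v i hi
  have h2 : iteratedFDeriv ℝ i (⇑(ContinuousLinearMap.apply ℝ G v) ∘ A) z = 0 := h1
  rw [this] at h2
  simpa using congrArg (fun T => T u) h2

variable (S)

/-- the section with the transverse jets `s` -/
def hat {L : ℕ} (s : E → Jet L V G) (z : V) : G := poly (s (S.pS z)) (S.iU (S.pU z))

theorem sub_iS (z : V) : z - S.iS (S.pS z) = S.iU (S.pU z) := by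
  rw [sub_eq_iff_eq_add', S.iS_add]

theorem hatL_pb (L j : ℕ) : ∃ C : ℝ, 1 ≤ C ∧ ∀ (s : E → P →L[ℝ] Jet L V G) (z : V) (K : ℝ),
    ‖z‖ ≤ 1 → Pb j s (S.pS z) K →
      Pb j (fun z => polyL L V G (S.iU (S.pU z)) ∘L s (S.pS z)) z (C * K) := by
  obtain ⟨C, h1, hC⟩ := pb_ball (f := fun z : V => polyL L V G (S.iU (S.pU z)))
    (contDiff_polyL.comp (S.iU ∘L S.pU).contDiff) 1 j
  have h2 : (1 : ℝ) ≤ j.factorial := by exact_mod_cast Nat.one_le_iff_ne_zero.2 j.factorial_ne_zero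
  refine ⟨2 ^ j * (C * j.factorial), one_le_mul_of_one_le_of_one_le (one_le_pow₀ one_le_two)
    (one_le_mul_of_one_le_of_one_le h1 h2), fun s z K hz hs => ?_⟩
  exact ((hC z hz).compL (pb_pS hs)).le (le_of_eq (by ring))

theorem hat_pb (L j : ℕ) : ∃ C : ℝ, 1 ≤ C ∧ ∀ (s : E → Jet L V G) (z : V) (K : ℝ),
    ‖z‖ ≤ 1 → Pb j s (S.pS z) K → Pb j (hat S s) z (C * K) := by
  obtain ⟨C, h1, hC⟩ := pb_ball (f := fun z : V => polyL L V G (S.iU (S.pU z)))
    (contDiff_polyL.comp (S.iU ∘L S.pU).contDiff) 1 j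
  have h2 : (1 : ℝ) ≤ j.factorial := by exact_mod_cast Nat.one_le_iff_ne_zero.2 j.factorial_ne_zero
  refine ⟨2 ^ j * (C * j.factorial), one_le_mul_of_one_le_of_one_le (one_le_pow₀ one_le_two)
    (one_le_mul_of_one_le_of_one_le h1 h2), fun s z K hz hs => ?_⟩
  have := ((hC z hz).app (pb_pS hs)).le (le_of_eq (by ring) :
    _ ≤ 2 ^ j * (C * j.factorial) * K)
  simp only [polyL_apply] at this
  exact this

theorem hat_sm {L : ℕ} {s : E → Jet L V G} {z : V} (hs : ContDiffAt ℝ ∞ s (S.pS z)) :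
    ContDiffAt ℝ ∞ (hat S s) z :=
  contDiff_poly₂.contDiffAt.comp z ((hs.comp z S.pS.contDiff.contDiffAt).prodMk
    (S.iU ∘L S.pU).contDiff.contDiffAt)

variable {S}

/-- holonomic sections -/
theorem hat_jet {L : ℕ} {s : E → Jet L V G} {g : V → G} {w : E} (hg : ContDiffAt ℝ ∞ g (S.iS w))
    (hs : ∀ᶠ u in 𝓝 w, s u = jet L g (S.iS u)) : jet L (hat S s) (S.iS w) = s w := by
  have hs0 : ContDiffAt ℝ ∞ s (S.pS (S.iS w)) := by
    rw [S.pS_iS]
    obtain ⟨K, hK⟩ := pb_exists hg (0 + L)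
    exact (pb_iS (pb_jet hK)).sm.congr_of_eventuallyEq hs
  rw [hs.self_of_nhds, jet_eq_iff (cda (hat_sm S hs0) L) (cda hg L)]
  obtain ⟨U, hU, hw, hc⟩ := exists_open hg (L + 1)
  have hct : ContinuousAt (iteratedFDeriv ℝ (L + 1) g) (S.iS w) :=
    (cda hg (L + 1)).continuousAt_iteratedFDeriv (k := L + 1) le_rfl
  set C := ‖iteratedFDeriv ℝ (L + 1) g (S.iS w)‖ + 1
  have h1 : ∀ᶠ q in 𝓝 (S.iS w), q ∈ U ∧ ‖iteratedFDeriv ℝ (L + 1) g q‖ ≤ C :=
    (hU.eventually_mem hw).and (hct.norm.eventually (ge_mem_nhds (lt_add_one _)))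
  obtain ⟨r, hr, hb⟩ := Metric.eventually_nhds_iff_ball.1 h1
  have h2 : ∀ᶠ z in 𝓝 (S.iS w), s (S.pS z) = jet L g (S.iS (S.pS z)) :=
    (S.pS.continuous.tendsto' _ w (S.pS_iS w)).eventually hs
  refine Flat.of_pow (C := C) ?_
  filter_upwards [h2, ball_mem_nhds _ (half_pos hr)] with z hz hz'
  rw [mem_ball, dist_eq_norm] at hz'
  have e1 : ‖S.iS (S.pS z) - S.iS w‖ ≤ ‖z - S.iS w‖ := by
    rw [← map_sub, S.norm_iS]
    simpa [S.pS_iS] using S.norm_pS_le (z - S.iS w)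
  have e2 : ‖z - S.iS (S.pS z)‖ ≤ ‖z - S.iS w‖ := by
    rw [sub_iS, S.norm_iU]
    simpa [S.pU_iS] using S.norm_pU_le (z - S.iS w)
  have hsub : ball (S.iS (S.pS z)) (r / 2) ⊆ ball (S.iS w) r :=
    ball_subset_ball' (by rw [dist_eq_norm]; linarith)
  have h3 := taylor_bound (k := L) (hc.mono fun q hq => (hb q (hsub hq)).1)
    (fun q hq => (hb q (hsub hq)).2) (q := z) (by rw [mem_ball, dist_eq_norm]; linarith)
  rw [norm_sub_rev, hat, hz, ← sub_iS]
  exact h3.trans (mul_le_mul_of_nonneg_left (pow_le_pow_left₀ (norm_nonneg _) e2 _)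
    (by positivity))

theorem hat_sub' {L : ℕ} (s s' : E → Jet L V G) (z : V) :
    hat S s z - hat S s' z = hat S (fun w => s w - s' w) z := by
  simp only [hat, ← polyL_apply, map_sub]

/-- limits of holonomic sections -/
theorem hat_lim {L : ℕ} {s : E → P →L[ℝ] Jet L V G} {t : ℕ → E → P →L[ℝ] Jet L V G} {w : E}
    (hw : ‖w‖ ≤ 1) (hs : ContDiffAt ℝ ∞ s w) (ht : ∀ k, ContDiffAt ℝ ∞ (t k) w)
    (hl : ∀ i, Tendsto (fun k => iteratedFDeriv ℝ i (t k) w) atTop (𝓝 (iteratedFDeriv ℝ i s w)))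
    (v : P) (h : ∀ k, jet L (hat S fun u => t k u v) (S.iS w) = t k w v) :
    jet L (hat S fun u => s u v) (S.iS w) = s w v := by
  obtain ⟨C, h1, hC⟩ := hat_pb S (G := G) L L
  set δ : ℕ → ℝ := fun k => ∑ i ∈ Finset.range (L + 1),
    ‖iteratedFDeriv ℝ i s w - iteratedFDeriv ℝ i (t k) w‖
  have hδ : Tendsto δ atTop (𝓝 0) := by
    have := tendsto_finset_sum (Finset.range (L + 1)) fun i _ =>
      ((tendsto_const_nhds (x := iteratedFDeriv ℝ i s w)).sub (hl i)).norm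
    simpa using this
  have hb : ∀ k, Pb L (fun u => s u - t k u) w (δ k) := fun k => ⟨hs.sub (ht k), fun i hi => by
    rw [fun_iteratedFDeriv_sub_apply (cda hs i) (cda (ht k) i)]
    exact Finset.single_le_sum (f := fun i => ‖iteratedFDeriv ℝ i s w - iteratedFDeriv ℝ i (t k) w‖)
      (fun _ _ => norm_nonneg _) (Finset.mem_range.2 (by omega))⟩
  have sm : ∀ {a : E → P →L[ℝ] Jet L V G}, ContDiffAt ℝ ∞ a w →
      ContDiffAt ℝ L (hat S fun u => a u v) (S.iS w) := fun ha =>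
    cda (hat_sm S (by rw [S.pS_iS]; exact ha.clm_apply contDiffAt_const)) L
  refine eq_of_norm_sub_le_zero (ge_of_tendsto' (x := atTop)
    (f := fun k => C * (δ k * ‖v‖) + δ k * ‖v‖) (by
      simpa using ((hδ.mul_const ‖v‖).const_mul C).add (hδ.mul_const ‖v‖)) fun k => ?_)
  have a1 := pb_ap (hb k) v
  have a2 := hC _ (S.iS w) _ (by rwa [S.norm_iS]) (by rw [S.pS_iS]; exact a1)
  have a3 := norm_jet_le a2.nonneg a2.bd
  simp only [ContinuousLinearMap.sub_apply] at a3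
  rw [← funext (hat_sub' (S := S) _ _), jet_sub (sm hs) (sm (ht k)), h k] at a3
  have a4 := a1.norm_le
  simp only [ContinuousLinearMap.sub_apply] at a4
  have := norm_sub_le (jet L (hat S fun u => s u v) (S.iS w) - t k w v) (s w v - t k w v)
  rw [sub_sub_sub_cancel_right] at this
  linarith

variable (S)

/-- comparison with a section which has the same jet at the centre -/
theorem hat_sub (N L : ℕ) : ∃ C : ℝ, 0 ≤ C ∧ ∀ (s : E → Jet L V G) (l : V → G) (r K : ℝ), r ≤ 1 →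
    Van N (fun w => s w - jet L l (S.iS w)) 0 → Bd r N s K →
    (∀ z ∈ ball (0 : V) r, Pb (N + L + 1) l z K) → ∀ z ∈ ball (0 : V) (r / 2),
      ‖hat S s z - l z‖ ≤ C * K * (‖S.pS z‖ ^ N + ‖S.pU z‖ ^ (L + 1)) := by
  obtain ⟨C, h0, hC⟩ := poly_bound (V := V) (W := G) L 0
  set D : ℝ := 1 + N.factorial * (L + 1) with hD
  refine ⟨C * D + 1, by positivity, fun s l r K hr hv hs hl z hz => ?_⟩
  rw [mem_ball_zero_iff] at hz
  have hz0 := norm_nonneg z
  have hS := S.norm_pS_le z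
  have hU := S.norm_pU_le z
  have hK := (hl z (mem_ball_zero_iff.2 (by linarith))).nonneg
  have a1 := hv.norm_le N (ρ := r) (K := D * K) (fun u hu => ((hs u hu).sub (pb_iS (pb_jet
    ((hl (S.iS u) (by rwa [mem_ball_zero_iff, S.norm_iS, ← mem_ball_zero_iff])).mono
      (Nat.le_succ _) le_rfl)))).le (le_of_eq (by rw [hD]; ring))) (S.pS z)
    (mem_ball_zero_iff.2 (by linarith))
  have a2 := hC (s (S.pS z) - jet L l (S.iS (S.pS z))) (S.iU (S.pU z))
    (mem_closedBall_zero_iff.2 (by rw [S.norm_iU]; linarith))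
  rw [norm_iteratedFDeriv_zero, ← polyL_apply, map_sub, polyL_apply, polyL_apply] at a2
  have hsub : ball (S.iS (S.pS z)) (r / 2) ⊆ ball (0 : V) r :=
    ball_subset_ball' (by rw [dist_zero_right, S.norm_iS]; linarith)
  have a3 := taylor_bound (k := L) (f := l)
    (fun q hq => (cda (hl q (hsub hq)).sm (L + 1)).contDiffWithinAt)
    (fun q hq => (hl q (hsub hq)).bd _ (by omega)) (q := z)
    (by rw [mem_ball, dist_eq_norm, sub_iS, S.norm_iU]; linarith)
  rw [sub_iS, S.norm_iU, norm_sub_rev] at a3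
  rw [sub_zero] at a1
  have a4 := norm_add_le (hat S s z - poly (jet L l (S.iS (S.pS z))) (S.iU (S.pU z)))
    (poly (jet L l (S.iS (S.pS z))) (S.iU (S.pU z)) - l z)
  rw [sub_add_sub_cancel] at a4
  have a5 := a2.trans (mul_le_mul_of_nonneg_left a1 h0)
  have p1 : 0 ≤ K * ‖S.pS z‖ ^ N := by positivity
  have p2 : 0 ≤ C * D * K * ‖S.pU z‖ ^ (L + 1) := by positivity
  have a6 : ‖hat S s z - poly (jet L l (S.iS (S.pS z))) (S.iU (S.pU z))‖
    ≤ C * (D * K * ‖S.pS z‖ ^ N) := a5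
  nlinarith

variable (𝔉)

/-- pull back along an orbit which stays in the charts -/
theorem pull_pb (p : ℕ) : ∃ C Q : ℝ, 0 ≤ C ∧ 0 ≤ Q ∧ ∀ x, ∀ t ≥ (0 : ℝ), ∀ q, S.Stay (1 / 2) x t q →
    ∀ (l : V → Du F) (K : ℝ), Pb p l (S.τ x (S.φ t x) q) K →
      Pb p (𝔉.pull x (S.φ t x) l) q (C * Real.exp (Q * t) * K) := by
  obtain ⟨b, hb, h⟩ := S.stay_τ (a := 1 / 2) (by norm_num)
  obtain ⟨b', hb', h'⟩ := S.stay_A 𝔉 (a := 1 / 2) (by norm_num)
  choose C hC0 hC using fun k => h (k + 1) (by omega)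
  choose C' hC0' hC' using h'
  set D : ℝ := 1 + ∑ k ∈ Finset.range p, C k with hD
  set D' : ℝ := ∑ k ∈ Finset.range (p + 1), C' k with hD'
  have d0 : 0 ≤ ∑ k ∈ Finset.range p, C k := Finset.sum_nonneg fun k _ => hC0 k
  have d0' : 0 ≤ D' := Finset.sum_nonneg fun k _ => hC0' k
  refine ⟨2 ^ p * (p.factorial * D ^ p * D'), b * p * p + b' * (p + 1), by positivity,
    by positivity, fun x t ht q hq l K hl => ?_⟩
  have hd := (hq t right_mem_uIcc).1
  have e1 : 1 ≤ Real.exp (b * p * t) := Real.one_le_exp (by positivity)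
  have a1 := hl.comp (D := D * Real.exp (b * p * t)) (Sys.contDiffAt_τ hd)
    (one_le_mul_of_one_le_of_one_le (by linarith) e1) fun i h1 hi => by
      obtain ⟨i, rfl⟩ : ∃ k, i = k + 1 := ⟨i - 1, by omega⟩
      refine (hC i x t q hq).trans (mul_le_mul ?_ (Real.exp_le_exp.2 ?_) (by positivity)
        (by linarith))
      · have := Finset.single_le_sum (f := C) (fun k _ => hC0 k)
          (Finset.mem_range.2 (by omega : i < p))
        linarith
      · rw [abs_of_nonneg ht]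
        have : ((i + 1 : ℕ) : ℝ) ≤ p := by exact_mod_cast hi
        gcongr
  have a2 : Pb p (𝔉.A x (S.φ t x)) q (D' * Real.exp (b' * (p + 1) * t)) :=
    ⟨𝔉.contDiffAt hd, fun i hi => (hC' i x t q hq).trans (mul_le_mul
      (Finset.single_le_sum (f := C') (fun k _ => hC0' k) (Finset.mem_range.2 (by omega)))
      (Real.exp_le_exp.2 (by
        rw [abs_of_nonneg ht]
        have : (i : ℝ) ≤ p := by exact_mod_cast hi
        gcongr)) (by positivity) d0')⟩
  refine (a1.compL a2).le (le_of_eq ?_)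
  rw [mul_pow, ← Real.exp_nat_mul, add_mul, Real.exp_add,
    show (p : ℝ) * (b * p * t) = b * p * p * t by ring]
  ring

end Ax

end Vale.Agent.P207Z
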