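import Vale.Agent.P207Z.Char.Axis.Hat

/-!
# P207: holonomic lifts of a family of jets along the stable axes of an orbit
-/

set_option linter.all false

open Set Filter Topology Metric MeasureTheory Asymptotics
open scoped ContDiff

noncomputable section

namespace Vale.Agent.P207Z

open Vale.Agent.P207.N3 (JC)
open Lift

variable {Γ X B E V : Type} [Group Γ] [Countable Γ] [MetricSpace X] [ProperSpace X]
  [MulAction Γ X] [IsIsometricSMul Γ X] [MeasurableSpace X] [BorelSpace X]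
  [TopologicalSpace B] [CompactSpace B] [T2Space B] [SecondCountableTopology B] [MulAction Γ B]
  [ContinuousConstSMul Γ B] [MeasurableSpace B] [BorelSpace B]
  [NormedAddCommGroup E] [InnerProductSpace ℝ E] [FiniteDimensional ℝ E]
  [NormedAddCommGroup V] [NormedSpace ℝ V] [FiniteDimensional ℝ V]
  {F : Type} [NormedAddCommGroup F] [NormedSpace ℝ F] [FiniteDimensional ℝ F]
  {S : Sys Γ X B E V} {𝔉 : Bun S F}
  {G : Type} [NormedAddCommGroup G] [NormedSpace ℝ G] [FiniteDimensional ℝ G]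
  {P H : Type} [NormedAddCommGroup P] [NormedSpace ℝ P] [NormedAddCommGroup H] [NormedSpace ℝ H]

namespace Ax

variable (P) in
/-- composition on the left -/
def post (A : ℕ → E → H →L[ℝ] H) (k : ℕ) (u : E) : (P →L[ℝ] H) →L[ℝ] P →L[ℝ] H :=
  ContinuousLinearMap.compL ℝ P H H (A k u)

variable {ρ q M : ℝ} {c : ℕ → ℝ} {θ : ℕ → E → E} {A : ℕ → E → H →L[ℝ] H}

variable (P) in
theorem dat_post (h : Dat ρ q M c θ A) : Dat ρ q M c θ (post P A) where
  zero := h.zero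
  sm := h.sm
  der := h.der
  bθ := h.bθ
  b0 n u hu := ContinuousLinearMap.opNorm_le_bound _ ((norm_nonneg _).trans (h.b0 n u hu))
    fun l => ((A n u).opNorm_comp_le l).trans
      (mul_le_mul_of_nonneg_right (h.b0 n u hu) l.opNorm_nonneg)
  bB n j u hu := (h.bB n j u hu).post P

theorem it_post (k n : ℕ) (s : E → P →L[ℝ] H) (u : E) (v : P) :
    It θ (post P A) k n s u v = It θ A k n (fun u => s u v) u := by
  induction n generalizing k u with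
  | zero => rfl
  | succ n ih => exact congrArg (A k u) (ih (k + 1) (θ k u))

theorem tr_post (k : ℕ) (s : E → P →L[ℝ] H) (u : E) (v : P) :
    Tr θ (post P A) k s u v = It θ A k (0 + 1) (fun u => s u v) u := rfl

theorem it_zero (k : ℕ) (s : E → H) : It θ A k 0 s = s := rfl

theorem tr_sm (h : Dat ρ q M c θ A) (hq : q ≤ 1) {s : E → H}
    (hs : ∀ u ∈ ball (0 : E) ρ, ContDiffAt ℝ ∞ s u) (k : ℕ) :
    ∀ u ∈ ball (0 : E) ρ, ContDiffAt ℝ ∞ (Tr θ A k s) u := h.it_sm hq hs k 1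

theorem van_ap {N : ℕ} {s t : E → P →L[ℝ] H} {u : E} (h : Van N (fun u => s u - t u) u)
    (hs : ContDiffAt ℝ ∞ s u) (ht : ContDiffAt ℝ ∞ t u) (v : P) :
    Van N (fun u => s u v - t u v) u := h.clm (ContinuousLinearMap.apply ℝ H v) (hs.sub ht)

theorem it_inv (h : Dat ρ q M c θ A) (hq : q ≤ 1) {s : ℕ → E → H}
    (hs : ∀ k, ∀ u ∈ ball (0 : E) ρ, s k u = Tr θ A k (s (k + 1)) u) (n : ℕ) :
    ∀ u ∈ ball (0 : E) ρ, s 0 u = It θ A 0 n (s n) u := by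
  induction n with
  | zero => exact fun _ _ => rfl
  | succ n ih =>
    intro u hu
    rw [It_succ', ih u hu, zero_add]
    exact h.it_congr hq (hs n) 0 n u hu

variable (S G) in
theorem exists_T (N L : ℕ) : ∃ T : E → Jet (N + L) V G →L[ℝ] Jet L V G, ContDiff ℝ ∞ T ∧
    ∀ w a, T w a = jet L (poly a) (S.iS w) :=
  ⟨fun w => trunc (Nat.le_add_left L N) ∘L JL (N + L) V G (S.iS w),
    contDiff_const.clm_comp ((contDiff_JL _).comp S.iS.contDiff), fun w a => by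
      rw [ContinuousLinearMap.comp_apply, JL_apply, trunc_jet]⟩

theorem sm_jet {L : ℕ} {l : V → G} {w : E} (h : ContDiffAt ℝ ∞ l (S.iS w)) :
    ContDiffAt ℝ ∞ (fun u => jet L l (S.iS u)) w := by
  obtain ⟨K, hK⟩ := pb_exists h (0 + L)
  exact (pb_iS (pb_jet hK)).sm

/-- two maps with the same jet at the centre -/
theorem van_jets {N L : ℕ} {l l' : V → G} {O : Set V} (hO : O ∈ 𝓝 (0 : V))
    (hl : ∀ z ∈ O, ContDiffAt ℝ ∞ l z) (hl' : ∀ z ∈ O, ContDiffAt ℝ ∞ l' z)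
    (h : jet (N + L) l 0 = jet (N + L) l' 0) :
    Van N (fun w => jet L l (S.iS w) - jet L l' (S.iS w)) 0 := by
  have h0 := mem_of_mem_nhds hO
  have h1 := (hl 0 h0).sub (hl' 0 h0)
  have h2 : Van (N + L) (fun z => l z - l' z) 0 := (van_iff_jet.2 (by
    rw [jet_sub (cda (hl 0 h0) _) (cda (hl' 0 h0) _), h, sub_self])).mono (Nat.le_succ _)
  obtain ⟨K, hK⟩ := pb_exists h1 (0 + L)
  have h3 := Van.comp (f := S.iS) (x := 0) (by rw [map_zero]; exact van_jet h1 h2)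
    (by rw [map_zero]; exact (pb_jet hK).sm) S.iS.contDiff.contDiffAt
  refine h3.congr ?_
  filter_upwards [(S.iS.continuous.tendsto' 0 0 (map_zero _)).eventually hO] with w hw
  exact (jet_sub (cda (hl _ hw) _) (cda (hl' _ hw) _)).symm

variable (S G P) in
/-- the lifts, for an abstract transport `Pl` of sections -/
theorem lf_jet (L N : ℕ) (hρ : 0 < ρ) (hρ1 : ρ ≤ 1) (hM : 0 < M) (c : ℕ → ℝ) {g : ℝ} (hg : 0 < g)
    (hN : M * (1 / 2) ^ N * g < 1) (p : ℕ) : ∃ C : ℝ, 0 ≤ C ∧ ∀ (θ : ℕ → E → E)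
    (A : ℕ → E → Jet L V G →L[ℝ] Jet L V G) (Pl : ℕ → ℕ → (V → G) → V → G)
    (W : ℕ → P →L[ℝ] Jet (N + L) V G) (a : ℝ), Dat ρ (1 / 2) M c θ A →
    (∀ k n s l, (∀ u ∈ ball (0 : E) ρ, ContDiffAt ℝ ∞ l (S.iS u) ∧ s u = jet L l (S.iS u)) →
      ∀ u ∈ ball (0 : E) ρ, ContDiffAt ℝ ∞ (Pl k (k + (n + 1)) l) (S.iS u) ∧
        It θ A k (n + 1) s u = jet L (Pl k (k + (n + 1)) l) (S.iS u)) →
    (∀ k, ‖W k‖ ≤ a * g ^ k) →
    (∀ k j, Van N (fun w => jet L (Pl k (k + 1) (poly (W (k + 1) j))) (S.iS w)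
      - jet L (poly (W k j)) (S.iS w)) 0) →
    ∃ s : ℕ → E → P →L[ℝ] Jet L V G, (∀ k, Bd ρ p (s k) (C * a * g ^ k)) ∧
      (∀ k j, Van N (fun w => s k w j - jet L (poly (W k j)) (S.iS w)) 0) ∧
      (∀ k j, ∀ w ∈ ball (0 : E) ρ, jet L (hat S fun u => s k u j) (S.iS w) = s k w j) ∧
      ∀ k j, ∀ w ∈ ball (0 : E) ρ,
        jet L (Pl 0 (k + 1) (hat S fun u => s (k + 1) u j)) (S.iS w) = s 0 w j := by
  have h1 : ∀ {u : E}, u ∈ ball (0 : E) ρ → ‖u‖ ≤ 1 := fun hu => by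
    linarith [mem_ball_zero_iff.1 hu]
  have z0 : (0 : E) ∈ ball (0 : E) ρ := mem_ball_self hρ
  obtain ⟨T, hT, eT⟩ := exists_T S G N L
  choose cT hcT bT using pb_ball hT 1
  obtain ⟨C, h0, hC⟩ := lift_bd (E := E) (F := P →L[ℝ] Jet L V G) hρ one_half_pos
    one_half_lt_one hM c hg hN p
  refine ⟨C * (2 ^ (p + N) * cT (p + N)), by have := hcT (p + N); positivity,
    fun θ A Pl W a hd hP hW eW => ?_⟩
  have hD := dat_post P hd
  have bp : ∀ i k, Bd ρ i (fun w => T w ∘L W k) (2 ^ i * cT i * a * g ^ k) := fun i k u hu =>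
    ((bT i u (h1 hu)).compL (pb_const _ (hW k))).le (le_of_eq (by ring))
  have hb : ∀ i, ∃ a, ∀ k, Bd ρ i (fun w => T w ∘L W k) (a * g ^ k) := fun i => ⟨_, bp i⟩
  have pl : ∀ k j, ∀ u ∈ ball (0 : E) ρ, ContDiffAt ℝ ∞ (poly (W k j)) (S.iS u) ∧
      (T u ∘L W k) j = jet L (poly (W k j)) (S.iS u) := fun k j u _ =>
    ⟨(contDiff_poly _).contDiffAt, eT _ _⟩
  have sm := fun n k => hD.it_sm one_half_lt_one.le (fun u hu => (bp 0 (n + k) u hu).sm) n k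
  have hv : ∀ k, Van N (fun u => Tr θ (post P A) k (fun w => T w ∘L W (k + 1)) u
      - T u ∘L W k) 0 := fun k => by
    refine van_of_apply ((tr_sm hD one_half_lt_one.le (fun u hu => (bp 0 (k + 1) u hu).sm) k 0
      z0).sub (bp 0 k 0 z0).sm) fun j => (eW k j).congr ?_
    filter_upwards [ball_mem_nhds (0 : E) hρ] with u hu
    rw [ContinuousLinearMap.sub_apply, tr_post, (hP k 0 _ _ (pl (k + 1) j) u hu).2, (pl k j u hu).2]
  have sp := lift_spec hD hρ one_half_pos one_half_lt_one hM hg hN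
    (p := fun k w => T w ∘L W k) hv hb
  have bd := fun k => hC _ _ hD (fun k w => T w ∘L W k) hv hb k 
    (2 ^ (p + N) * cT (p + N) * a * g ^ k) fun i => (bp _ (k + i)).mono le_rfl (le_of_eq (by ring))
  generalize lift θ (post P A) (fun k w => T w ∘L W k) = s at sp bd
  have hol : ∀ k j, ∀ w ∈ ball (0 : E) ρ, jet L (hat S fun u => s k u j) (S.iS w) = s k w j :=
    fun k j w hw => hat_lim (h1 hw) ((sp k).1 w hw) (fun n => sm k n w hw)
      (fun i => (sp k).2.2.2 i w hw) j fun n => by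
        rcases n with _ | n
        · rw [it_zero]
          exact hat_jet (pl k j w hw).1 (Eventually.of_forall fun u => eT _ _)
        · refine hat_jet (hP k n _ _ (pl (k + (n + 1)) j) w hw).1 ?_
          filter_upwards [isOpen_ball.mem_nhds hw] with u hu
          rw [it_post, (hP k n _ _ (pl _ j) u hu).2]
  refine ⟨s, fun k => (bd k).mono le_rfl (le_of_eq (by ring)), fun k j => ?_, hol,
    fun k j w hw => ?_⟩
  · have := van_ap (sp k).2.2.1 ((sp k).1 0 z0) (bp 0 k 0 z0).sm j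
    simp only [ContinuousLinearMap.comp_apply, eT] at this
    exact this
  · rw [it_inv hD one_half_lt_one.le (fun k => (sp k).2.1) (k + 1) w hw, it_post,
      (hP 0 k _ _ (fun u hu => ⟨hat_sm S (by
        rw [S.pS_iS]; exact ((sp (k + 1)).1 u hu).clm_apply contDiffAt_const),
        (hol (k + 1) j u hu).symm⟩) w hw).2, zero_add]

/-- the properties of the lifts -/
structure Out (S : Sys Γ X B E V) (L N : ℕ) (ρ C : ℝ) (b : ℕ → ℝ) (Pl : ℕ → (V → G) → V → G)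
    (W : ℕ → P → Jet (N + L) V G) (l : ℕ → V → P →L[ℝ] G) : Prop where
  bd : ∀ k, ∀ z ∈ ball (0 : V) ρ, Pb (L + 1) (l k) z (C * b k)
  cmp : ∀ k j (l' : V → G) (r K : ℝ), 0 < r → r ≤ ρ → jet (N + L) l' 0 = W k j →
    (∀ z ∈ ball (0 : V) r, Pb (N + L + 1) l' z K) → ∀ z ∈ ball (0 : V) (r / 2),
      ‖l k z j - l' z‖ ≤ C * (b k * ‖j‖ + K) * (‖S.pS z‖ ^ N + ‖S.pU z‖ ^ (L + 1))
  eqv : ∀ k j, ∀ w ∈ ball (0 : E) ρ,
    jet L (Pl (k + 1) fun z => l (k + 1) z j) (S.iS w) = jet L (fun z => l 0 z j) (S.iS w)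
  zero : ∀ j, jet L (fun z => l 0 z j) 0 = jet L (poly (W 0 j)) 0

variable (S G P) in
theorem lf_abs (L N : ℕ) (hρ : 0 < ρ) (hρ1 : ρ ≤ 1) (hM : 0 < M) (c : ℕ → ℝ) {g : ℝ} (hg : 0 < g)
    (hN : M * (1 / 2) ^ N * g < 1) (hN1 : 1 ≤ N) : ∃ C : ℝ, 1 ≤ C ∧ ∀ (θ : ℕ → E → E)
    (A : ℕ → E → Jet L V G →L[ℝ] Jet L V G) (Pl : ℕ → ℕ → (V → G) → V → G)
    (W : ℕ → P →L[ℝ] Jet (N + L) V G) (a : ℝ), Dat ρ (1 / 2) M c θ A →
    (∀ k n s l, (∀ u ∈ ball (0 : E) ρ, ContDiffAt ℝ ∞ l (S.iS u) ∧ s u = jet L l (S.iS u)) →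
      ∀ u ∈ ball (0 : E) ρ, ContDiffAt ℝ ∞ (Pl k (k + (n + 1)) l) (S.iS u) ∧
        It θ A k (n + 1) s u = jet L (Pl k (k + (n + 1)) l) (S.iS u)) →
    (∀ k, ‖W k‖ ≤ a * g ^ k) →
    (∀ k j, Van N (fun w => jet L (Pl k (k + 1) (poly (W (k + 1) j))) (S.iS w)
      - jet L (poly (W k j)) (S.iS w)) 0) →
    ∃ l : ℕ → V → P →L[ℝ] G, Out S L N ρ C (fun k => a * g ^ k) (Pl 0) (fun k => W k) l := by
  obtain ⟨C, h0, hC⟩ := lf_jet S G P L N hρ hρ1 hM c hg hN (N + L + 1)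
  obtain ⟨C₁, h1, hC₁⟩ := hatL_pb S (G := G) (P := P) L (L + 1)
  obtain ⟨C₂, h2, hC₂⟩ := hat_sub S (G := G) N L
  refine ⟨(C₁ + C₂) * (C + 1), by nlinarith, fun θ A Pl W a hd hP hW eW => ?_⟩
  obtain ⟨s, s1, s2, s3, s4⟩ := hC θ A Pl W a hd hP hW eW
  have e : ∀ k j, (fun z => (polyL L V G (S.iU (S.pU z)) ∘L s k (S.pS z)) j)
      = hat S fun u => s k u j := fun k j => funext fun z => polyL_apply _ _
  have ha : ∀ k, 0 ≤ a * g ^ k := fun k => (W k).opNorm_nonneg.trans (hW k)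
  refine ⟨fun k z => polyL L V G (S.iU (S.pU z)) ∘L s k (S.pS z), fun k z hz => ?_,
    fun k j l' r K hr hr' hj hl z hz => ?_, fun k j w hw => ?_, fun j => ?_⟩
  · rw [mem_ball_zero_iff] at hz
    refine (hC₁ (s k) z _ (by linarith) ((s1 k _ (mem_ball_zero_iff.2
      ((S.norm_pS_le z).trans_lt hz))).mono (by omega) le_rfl)).le ?_
    have := ha k
    nlinarith [mul_nonneg h2 h0, mul_nonneg this h2, mul_nonneg this (mul_nonneg h2 h0)]
  · have hK := (hl 0 (mem_ball_self hr)).nonneg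
    have hb := mul_nonneg (ha k) (norm_nonneg j)
    have sm := ((s1 k 0 (mem_ball_self hρ)).sm.clm_apply (contDiffAt_const (c := j)))
    have a0 : ContDiffAt ℝ ∞ l' (S.iS 0) := by rw [map_zero]; exact (hl 0 (mem_ball_self hr)).sm
    have a1 := sm_jet (S := S) (L := L) (w := 0) (contDiff_poly (W k j)).contDiffAt
    have a2 := (s2 k j).add (van_jets (S := S) (l := poly (W k j)) (ball_mem_nhds 0 hr)
      (fun _ _ => (contDiff_poly _).contDiffAt) (fun z hz => (hl z hz).sm)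
      (by rw [← hj, jet_poly_jet (cda (hl 0 (mem_ball_self hr)).sm _)])) (sm.sub a1)
      (a1.sub (sm_jet a0))
    simp only [sub_add_sub_cancel] at a2
    have a3 := hC₂ (fun u => s k u j) l' r ((C + 1) * (a * g ^ k * ‖j‖ + K)) (hr'.trans hρ1) a2
      (fun u hu => (pb_ap (s1 k u (ball_subset_ball hr' hu)) j).mono (by omega) (by nlinarith))
      (fun z hz => (hl z hz).le (by nlinarith)) z hz
    rw [congrFun (e k j) z]
    refine a3.trans (mul_le_mul_of_nonneg_right ?_ (by positivity))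
    rw [← mul_assoc]
    gcongr
    linarith
  · rw [e, e, s4 k j w hw, s3 0 j w hw]
  · obtain ⟨N, rfl⟩ : ∃ n, N = n + 1 := ⟨N - 1, by omega⟩
    have a1 := s3 0 j 0 (mem_ball_self hρ)
    have a2 := sub_eq_zero.1 (s2 0 j).val
    rw [map_zero] at a1 a2
    rw [e, a1, a2]

variable (St : S.Step) {x : X} {L : ℕ}

theorem it_jet (k n : ℕ) (s : E → Jet L V (Du F)) (l : V → Du F)
    (hl : ∀ u ∈ ball (0 : E) St.ρ, ContDiffAt ℝ ∞ l (S.iS u) ∧ s u = jet L l (S.iS u)) :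
    ∀ u ∈ ball (0 : E) St.ρ,
      ContDiffAt ℝ ∞ (𝔉.pull (St.o x k) (St.o x (k + (n + 1))) l) (S.iS u) ∧
      It (St.θ x) (fun k w => 𝔉.JT L (St.o x k) (St.o x (k + 1)) (S.iS w)) k (n + 1) s u
        = jet L (𝔉.pull (St.o x k) (St.o x (k + (n + 1))) l) (S.iS u) := fun u hu => by
  obtain ⟨h1, h2⟩ := hl _ (St.maps (x := x) (k := k) (n := n + 1) hu)
  rw [St.iS_pS hu] at h1 h2
  refine ⟨𝔉.contDiffAt_pull (St.dom hu) h1, ?_⟩
  rw [St.it_eq (f := fun p q => 𝔉.JT L p.1 p.2 q)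
    (fun x y z q h h' => 𝔉.JT_coc L h h') s hu, h2]
  exact 𝔉.JT_jet L (St.dom hu) h1

theorem van_JT {N : ℕ} {y : X} (hp : S.pt x = S.pt y) {a b : Jet (N + L) V (Du F)}
    (e : 𝔉.JT (N + L) x y 0 b = a) :
    Van N (fun w => jet L (𝔉.pull x y (poly b)) (S.iS w) - jet L (poly a) (S.iS w)) 0 := by
  have z0 := Sys.zero_dom hp
  rw [𝔉.JT_apply _ z0, Sys.τ_zero hp] at e
  simp only [sub_zero] at e
  have s1 : ∀ z ∈ S.dom x y, ContDiffAt ℝ ∞ (𝔉.pull x y (poly b)) z :=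
    fun z hz => 𝔉.contDiffAt_pull hz (contDiff_poly _).contDiffAt
  exact van_jets (Sys.dom_nhds z0) s1 (fun _ _ => (contDiff_poly _).contDiffAt)
    (by rw [← e, jet_poly_jet (cda (s1 0 z0) _)])

variable (𝔉) in
theorem lf (L : ℕ) : ∃ M : ℝ, 1 ≤ M ∧ ∀ (N : ℕ) (g : ℝ), 0 < g → M * (1 / 2) ^ N * g < 1 → 1 ≤ N →
    ∃ C : ℝ, 1 ≤ C ∧ ∀ (x : X) (W : ℕ → Jet (N + L) V (Du F) →L[ℝ] Jet (N + L) V (Du F)) (a : ℝ),
      (∀ k, ‖W k‖ ≤ a * g ^ k) →
      (∀ k j, 𝔉.JT (N + L) (St.o x k) (St.o x (k + 1)) 0 (W (k + 1) j) = W k j) →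
      ∃ l, Out S L N St.ρ C (fun k => a * g ^ k) (fun k => 𝔉.pull x (St.o x k))
        (fun k => W k) l := by
  obtain ⟨M, c, hM, hd⟩ := St.dat (𝔉.jc_JT L) fun g x y q h => 𝔉.JT_smul L g h
  refine ⟨M, hM, fun N g hg hN hN1 => ?_⟩
  obtain ⟨C, h1, hC⟩ := lf_abs S (Du F) (Jet (N + L) V (Du F)) L N St.ρ_pos
    (St.ρ_le.trans (by norm_num)) (one_pos.trans_le hM) c hg hN hN1
  refine ⟨C, h1, fun x W a hW eW => ?_⟩
  have := hC _ _ (fun k k' => 𝔉.pull (St.o x k) (St.o x k')) W a (hd x) (it_jet St) hW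
    fun k j => van_JT (St.pt_o.trans St.pt_o.symm) (eW k j)
  rwa [St.o_zero] at this

end Ax

end Vale.Agent.P207Z
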